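import Vale.Agent.P218ST.Main
import Vale.Agent.P218GC.HubG
import Vale.Agent.P218CP.HM
import Vale.Agent.P218HC.OW
import Vale.Agent.P218OP.GeoGood
import Vale.Agent.P218A1.Ex
import Vale.Agent.P218CI.Inj
import Vale.Agent.P218KE.Done
import Vale.Agent.P218SQ.D7f

/-! # The static construction -/

open Set Filter Topology Metric MeasureTheory

set_option linter.unusedSectionVars false

namespace Vale.Agent.P218HU

open Vale.Agent.P218GA Vale.Agent.P218HB Vale.Agent.P272.K.LIN Vale.Agent.P218CO Vale.Agent.P218ST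
open Vale.Agent.P218SQ (Pt ofReal)
open Vale.Agent.P218SQ.D7 (Out exists_red)
open Vale.Agent.P218VA (E2 coreK CkAt)
open Vale.Agent.P218A1 (Pack lev Fit)
open Vale.Agent.P218KE (Mult pull)
open Vale.Agent.P218OP (theOp)
open Vale.Agent.P218TP (GG)
open Vale.Agent.P218HC Vale.Agent.P218CP

variable {S : Set E3} {w : E3 → ℝ} {δ C : ℝ} {ι κ M : Type} [Fintype ι] [Fintype κ]
  [TopologicalSpace M] [ChartedSpace E2 M] [T2Space M] [RSm E2 M] [CompactSpace M]
  [MeasurableSpace M] [BorelSpace M] {m : Model S w δ C ι κ M} {ε : ι ⊕ κ → Bool} {𝒞 : Cov E2 M}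
  {a s K ρ : ℝ} {n : ℕ} {e : Fin n ⊕ ι → E3 → ℝ}

lemma fit : Fit m ε (theOp m ε a) := ⟨rfl, fun _ => rfl⟩

lemma setup (P : Pack m ε 𝒞 s K) (he : Mult m a e) (h : a ≤ s) (hc : (theOp m ε a).Good s) :
    Setup (theOp m ε a) s m.mu0 (fun k => pull m (e k)) (fun i => pull m (e (.inl i))) P.r 1
      geoBd P.O P.mO :=
  ⟨hc, m.isArea.fin, (he.mono (by linarith)).src, fun _ => (he.mono (by linarith)).src _,
    by simp; ring, P.baseFam fit⟩

/-- the glued functions form a holomorphic family -/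
theorem hm_glue {τ : Type} [Fintype τ] {c : Cst} (hs : m.w0 < s) {v : (ι → ℝ) → Pt ι τ → VC 𝒞}
    {vb : Pt ι τ → VC 𝒞} (hv : HV c v vb) {μ : (ι → ℝ) → Pt ι τ → ι ⊕ κ → ℝ × ℝ → ℂ}
    (per : ∀ W z j, P218MP.Per (μ W z j)) (hμ : ∀ j (p : ℝ × ℝ), s < p.1 → ∃ μb,
      HG c (1, 0) (0, 1) p (fun W z => μ W z j) μb ∧ μb 0 =ᶠ[𝓝 p] 0) {y : M} (hy : y ∈ m.reg) :
    ∃ Ub, HM c y (fun W z => (ends m).glue s (fnC (v W z)) (μ W z)) Ub ∧
      ∀ᶠ y' in 𝓝 y, Ub 0 y' = 0 := by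
  have h0 : ∀ x, fnC (vb 0) x = 0 := fun x => by rw [hv.zero, fnC_zero]
  rcases P218OP.reg_cases (𝓔 := ends m) hy (s + 3) with h | ⟨j, p, hp, h, rfl⟩
  · refine ⟨_, (hm_fnC hv.hb hv.lp y).congr (.of_forall fun _ => ?_)
      (.of_forall fun _ => .of_forall fun _ _ _ => rfl), .of_forall h0⟩
    filter_upwards [(Ends.isOpen_below (𝓔 := ends m) (by linarith : m.w0 < s + 3)).mem_nhds h]
      with y' h1 W z _ using Ends.glue_below h1
  obtain ⟨μb, h1, h2⟩ := hμ j p (by linarith)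
  have h3 := HM.pull (d1 := ((1, 0) : ℝ × ℝ)) (d2 := (0, 1)) (m.mem j) (Ends.pol_mem j hp)
    (hm_fnC hv.hb hv.lp _) P218VA.contDiff_pol.contDiffAt
  have h4 : ContDiffAt ℝ 2 (fun q : ℝ × ℝ =>
      (((1 - st (s + 5) q.1 : ℝ) : ℂ), ((st (s + 3) q.1 : ℝ) : ℂ))) p :=
    ((Complex.ofRealCLM.contDiff.comp ((contDiff_st2' _).comp contDiff_fst)).prodMk
      (Complex.ofRealCLM.contDiff.comp ((contDiff_st2 _).comp contDiff_fst))).contDiffAt
  obtain ⟨Ub, a1, a2, -⟩ := hm_of_polar (g0 := fun _ => 0)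
    (g := fun W z => (ends m).glue s (fnC (v W z)) (μ W z)) hp
    (((h3.prod h1).comp₂ h4 (Θ := fun q : (ℂ × ℂ) × ℂ × ℂ => q.1.1 * q.2.1 + q.1.2 * q.2.2)
      (by fun_prop)).congr' ((Ends.ev_w0 hp).mono fun q hq W z _ => Ends.glue_Y (per W z j) hq))
    (h2.mono fun q hq => by simp [hq, h0])
  exact ⟨Ub, a1, a2⟩

/-- the output of the static construction from the solutions of the system -/
theorem hub_of (P : Pack m ε 𝒞 s K) (ha : m.w0 + 1 < a) (has : a ≤ s) (hO : Orient m ε a)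
    (he : Mult m a e) (hc : (theOp m ε a).Good s)
    {T : Solver (theOp m ε a) s m.mu0 (fun k => pull m (e k)) (fun i => pull m (e (.inl i))) P.r
      geoBd P.O P.mO} {c : Cst} {al : (ι → ℝ) → Pt ι (Fin n) → ι → ℂ}
    {x : (ι → ℝ) → Pt ι (Fin n) → XX 𝒞 (ι × Fin 2) (Fin n ⊕ ι)}
    {xb : Pt ι (Fin n) → XX 𝒞 (ι × Fin 2) (Fin n ⊕ ι)} {mo : Pt ι (Fin n) → Fin n ⊕ ι → ℂ}
    (h : Out T GG K ρ P.OW P.mW c al x xb mo) (h1 : 4 * ρ ≤ P.r) (h2 : 4 * ρ ≤ 1)
    (hw : s ^ 2 ≤ c.w1) {Kc : ℝ} (hk : ∀ j, P218CN.ConeHub m j c (s + 6) Kc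
      (fun W z => P218CN.tOf m j (sgn (ε (.inr j))) (P.Jc j (x W z).1))
      fun z => P218CN.tOf m j (sgn (ε (.inr j))) (P.Jc j (xb z).1))
    (hs : ∀ g : E3 → ℝ, ContDiff ℝ (⊤ : ℕ∞) g → HasCompactSupport g →
      ∃ (u : M → ℝ) (l : Fin n ⊕ ι → ℝ), (∀ x ∈ m.reg, CkAt 2 u x ∧
        P218ND.LM m u x = g (m.F x) + ∑ k, l k * e k (m.F x)) ∧ MemLp u 2 m.mu0) :
    ∃ H : Hub m (Fin n), H.s = s + 6 := by
  have b0 := P.big
  have r0 := P.r_pos
  have ρ0 : 0 < ρ := c.r_pos.trans_le h.red.r_le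
  have hr := fun W y hy => (h.real W y hy).1
  have hW : ∀ W (z : Pt ι (Fin n)), c.Ok W z → ∀ i, s ^ 2 ≤ W i := fun W z hz i =>
    hw.trans (hz.1 i).1
  have hm := fun W z (hz : c.Ok W z) => h.red.mem' hz (show ρ ≤ P.r by linarith)
  have hm1 : ∀ W z, c.Ok W z → (x W z).1 ∈ ball (0 : VC 𝒞) P.r := fun W z hz =>
    mem_ball_zero_iff.2 ((norm_fst_le _).trans_lt (mem_ball_zero_iff.1 (hm W z hz).2))
  have hx : HV c x xb := ⟨h.red.hb, h.red.lpx, h.zero⟩
  have hv := hx.clm (ContinuousLinearMap.fst ℂ _ _)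
  have hB := (hx.clm (ContinuousLinearMap.snd ℂ _ _)).clm (ContinuousLinearMap.fst ℂ _ _)
  have hg := fun j p => hg_OW P h.red (by linarith) hw h.zero hr j (p := p)
  have nB : ∀ u : XX 𝒞 (ι × Fin 2) (Fin n ⊕ ι), ‖u‖ < ρ → ‖u.2.1‖ < 1 / 4 := fun u hu => by
    linarith [(norm_fst_le u.2).trans (norm_snd_le u)]
  have hI : ∀ W (z : Pt ι (Fin n)), c.Ok W z → ∀ j : ι ⊕ κ, Ioc s (s + 9) ⊆ lev s W j :=
    fun W z hz j => by
      rcases j with i | k
      exacts [fun u hu => ⟨hu.1, by nlinarith [hW W z hz i, hu.2]⟩, Ioc_subset_Ioi_self]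
  obtain ⟨c', hc', G⟩ := Cst.exists_of_ev (P218GC.geoHub m ε ha has hO he.supp hc h
    (I := lev s) (fun W z hz j => ⟨hI W z hz j, P.endSol fit (hW W z hz) (hm W z hz).1 (hm1 W z hz) j⟩)
    (fun y hy => hm_glue (by linarith) hv (fun W z => per_OW P W _ _) hg (P218GC.coreK_reg m hy))
    (fun W y hy j p hp => im_OW P (hW W _ hy) (hm W _ hy).1 (h.red.real W y hy) (hm1 W _ hy)
      (hr W y hy) j (Pack.sub_lev (fun i => by nlinarith [hW W _ hy i]) j hp))
    (fun W z hz i p p1 p2 => P.ub_add (hW W z hz i) ((hm W z hz).1 i) _ ⟨by linarith, p2.le⟩)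
    (t := fun W z j => P218CN.tOf m j (sgn (ε (.inr j))) (P.Jc j (x W z).1))
    fun W z hz k p hp => rfl)
  obtain ⟨K0, k0, hK0⟩ := pack_cyl P h.red (s := s + 6) (by linarith) hw le_rfl (by nlinarith)
    h.zero hr
  obtain ⟨K1, hK1⟩ := h.red.tip'
  obtain ⟨A, A0, A1, A2⟩ : ∃ A, K0 ≤ A ∧ |K1| ≤ A ∧ Kc ≤ A :=
    ⟨max K0 (max |K1| Kc), le_max_left _ _, le_max_of_le_right (le_max_left _ _),
      le_max_of_le_right (le_max_right _ _)⟩
  obtain ⟨f1, f2, f3, f4, f5⟩ := cyl_fields (J := fun W z i => P.J i (W i) (al W z i, (x W z).1))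
    fun i => (hK0 i).mono hc' le_rfl (by nlinarith [hc'.w1]) A0
  exact ⟨
    { c := c', sd := a, s := s + 6, a0 := s, C0 := A, B := 1, e := e, X := _, U := _, lam := _
      lamb := _, mo := mo, R := _, Rb := fun z i => rotM m (.inl i) (xb z).2.1, α := al, J := _
      t := _, tb := fun z j => P218CN.tOf m j (sgn (ε (.inr j))) (P.Jc j (xb z).1)
      lt := by linarith, le := by linarith, le' := by nlinarith [hc'.w1]
      e_cont := fun k => (he.cd k).continuous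
      e_supp := he.supp
      core := core_of ha (by linarith) (hv.mono hc') (hB.mono hc') (fun W z _ => per_OW P W _ _)
        fun j p p1 _ => (hg j p (by linarith)).imp fun _ k => ⟨k.1.mono hc', k.2⟩
      normal := G.normal, deep := G.deep, out := G.out, X_real := G.X_real, lam_hb := G.lam_hb
      lam_zero := G.lam_zero, lam_real := G.lam_real, pin := G.pin
      mo_holo := h.mo_holo.mono hc'.ball
      mo_inj := h.mo_inj
      solv := hs
      orth := fun W z hz i => P218GC.rotM_orth m _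
        ((nB _ (h.red.mem W z (hc'.ok hz)).2).trans (by norm_num))
      R_hb := (rot_hb hB.hb (fun W z hz => nB _ (h.red.mem W z hz).2)
        fun z hz => nB _ (h.red.memb z hz)).mono hc' Subset.rfl
      R_lp := (rot_lp hB.lp fun W z hz => nB _ (h.red.mem W z hz).2).mono hc' Subset.rfl
      R_zero := fun i => by rw [h.zero]; exact rot_zero i
      R_real := fun W y hy i => rot_real i (congrArg Prod.fst (h.real W y (hc'.ok hy)).2)
      cyl := G.cyl, cylSol := f1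
      α_holo := fun W hW => (h.red.holo W (hc'.adm hW)).mono (hc'.dom W)
      J_holo := f2, J_lip := f3
      α_real := fun W y hy => h.red.real W y (hc'.ok hy)
      J_real := f4
      tip := fun W z hz i => (hK1 W z (hc'.ok hz) i).trans (by
        have := hz.pos i
        rw [hc'.k]
        gcongr
        exact (le_abs_self _).trans A1)
      u_hf := f5, cone := G.cone
      cone_eq := fun W z hz j => (hk j).cone_eq W z (hc'.ok hz)
      t_per := fun W z j => (hk j).t_per W z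
      t_hn := fun j => ⟨fun W z hz => (hk j).t_hn.cd W z (hc'.ok hz),
        fun z hz => (hk j).t_hn.cdb z (hc'.ball hz), (hk j).t_hn.hb.mono hc' Subset.rfl,
        (hk j).t_hn.lp.mono hc' Subset.rfl⟩
      t_zero := fun j => (hk j).t_zero
      t_supp := fun W z hz j p hp => ((hk j).t_supp W z (hc'.ok hz) p hp).trans A2
      t_real := fun W y hy j => (hk j).t_real W y (hc'.ok hy) }, rfl⟩

/-- **The static construction**, given the theory of the system on the closed surface. -/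
theorem exists_hub_of (m : Model S w δ C ι κ M)
    (hcore : ∀ (n : ℕ) (𝒞 : Cov E2 M) (c : CoreOp (ι ⊕ κ) (ι × Fin 2) M) (s δ : ℝ)
      (e : Fin n ⊕ ι → M → ℝ) (O : VC 𝒞 → ι ⊕ κ → ℝ × ℝ → ℂ) (mO : VC 𝒞 → ι × Fin 3 → ℂ),
      (∀ j, (c.op j).Ext s) →
      CoreStatement c s m.mu0 e (fun i => e (.inl i)) δ 1 geoBd O mO) (s0 : ℝ) :
    ∃ (n : ℕ) (H : Hub m (Fin n)), s0 ≤ H.s := by
  obtain ⟨n, a0, e, he⟩ := P218KE.exists_Mult m
  obtain ⟨ε, h1⟩ := P218OP.geo_good m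
  obtain ⟨a, ⟨ha, hO, hc⟩, h2⟩ := (h1.and (eventually_ge_atTop a0)).exists
  replace he := he.mono h2
  obtain ⟨𝒞⟩ := Cov.nonempty E2 M
  obtain ⟨Kc, h3⟩ := pack_cone m
  have h4 : ∀ᶠ s in atTop, a < s ∧ ∃ P : Pack m ε 𝒞 s s, Nonempty (Solver (theOp m ε a) s m.mu0
      (fun k => pull m (e k)) (fun i => pull m (e (.inl i))) P.r geoBd P.O P.mO) := by
    filter_upwards [P218A1.exists_pack m, eventually_gt_atTop a] with s a1 a2
    obtain ⟨P⟩ := a1 ε 𝒞 s le_rfl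
    obtain ⟨T, -⟩ := hcore n 𝒞 _ s P.r _ _ _ (hc s a2).2 (setup P he a2.le (hc s a2).1)
      (P218CI.linInj ε he hO) 1 one_pos
    exact ⟨a2, P, ⟨T⟩⟩
  obtain ⟨s, ⟨a1, P, ⟨T⟩⟩, a2, a3⟩ := (h4.and (h3.and (eventually_ge_atTop s0))).exists
  obtain ⟨w0, -, hF⟩ := P.fams (fit (a := a))
  have b0 := P.big
  have r0 := P.r_pos
  obtain ⟨c, al, x, xb, mo, b1, -, h⟩ := exists_red (setup P he a1.le (hc s a1).1) T hF
    (P218CI.sep ε he hO) (by linarith) (fun W hW α => P218TP.GG_sub_g0 hW (by linarith))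
    (show 0 < min P.r 1 / 4 by positivity) (s ^ 2)
  have b2 : 4 * (min P.r 1 / 4) ≤ P.r := by linarith [min_le_left P.r 1]
  obtain ⟨H, b3⟩ := hub_of P ha a1.le hO he (hc s a1).1 h b2 (by linarith [min_le_right P.r 1]) b1
    (a2 ε 𝒞 s P _ _ _ c al x xb h.red b2 h.zero fun W y hy => (h.real W y hy).1)
    (P218CI.solv_of ε he hO fun W => by
      obtain ⟨s', ⟨-, P', ⟨T'⟩⟩, b4⟩ := (h4.and (eventually_ge_atTop W)).exists
      exact ⟨s' + 2, by linarith, T'.solv⟩)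
  exact ⟨n, H, by linarith⟩

end Vale.Agent.P218HU
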